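import Vale.Agent.AP4.Main
import Vale.Agent.AP4.Asym

/-!
# P057, Q2 for `k = 4`: a new lower bound for `r_4(N)`
-/

namespace Vale.Agent.Results.P057.FourTermLower

open Vale.Agent.AP4

/-- `r_4(N) ≥ N 2^{-c √(log₂ N)} / (400 √(log₂ N))` for all `N ≥ 2`, with
`c = 2 √(2 log₂ (9/5)) = 2.604…`; in particular `r_4(N) ≥ N 2^{-(c + o(1)) √(log₂ N)}`, and
`c < 2 √(log₂ (24/7)) = 2.666…`. -/
theorem result :
    (∀ N : ℕ, 2 ≤ N →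
      (N : ℝ) * (2 : ℝ) ^ (-(2 * √(2 * Real.logb 2 (9 / 5))) * √(Real.logb 2 N)) /
        (400 * √(Real.logb 2 N)) ≤ rAP 4 N) ∧
    (∀ C : ℝ, 2 * √(2 * Real.logb 2 (9 / 5)) < C →
      ∀ᶠ N : ℕ in Filter.atTop, (N : ℝ) * (2 : ℝ) ^ (-C * √(Real.logb 2 N)) ≤ rAP 4 N) ∧
    2 * √(2 * Real.logb 2 (9 / 5)) < 2 * √(Real.logb 2 (24 / 7)) := by
  have h := asym (R := fun N => rAP 4 N) finite_form
  exact ⟨h, asym2 h, const_lt⟩

end Vale.Agent.Results.P057.FourTermLower
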