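import Vale.Agent.AP4.Rank7

/-!
# P057, Q2: a new lower bound for `r_k(N)` for every `k ≥ 4`
-/

namespace Vale.Agent.Results.P057.RankinConstant

open Vale.Agent.AP4

/-- For every `k ≥ 4`, with `n = ⌈log₂ k⌉` and `c = n 2^{(n-1)/2} (log₂ (9/5))^{1/n}`, for every
`C > c` and all large `N`, `r_k(N) ≥ N 2^{-C (log₂ N)^{1/n}}`.  The constant `c` is smaller than
`n 2^{(n-1)/2}`, and for `k = 4` it is smaller than `2 √(log₂ (24/7))`. -/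
theorem result :
    (∀ k n : ℕ, 4 ≤ k → n = Nat.clog 2 k → ∀ C : ℝ,
      (n : ℝ) * (2 : ℝ) ^ (((n : ℝ) - 1) / 2) * (Real.logb 2 (9 / 5)) ^ (1 / (n : ℝ)) < C →
        ∀ᶠ N : ℕ in Filter.atTop,
          (N : ℝ) * (2 : ℝ) ^ (-C * (Real.logb 2 N) ^ (1 / (n : ℝ))) ≤ rAP k N) ∧
    (∀ n : ℕ, 1 ≤ n →
      (n : ℝ) * (2 : ℝ) ^ (((n : ℝ) - 1) / 2) * (Real.logb 2 (9 / 5)) ^ (1 / (n : ℝ)) <
        (n : ℝ) * (2 : ℝ) ^ (((n : ℝ) - 1) / 2)) ∧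
    ((2 : ℕ) : ℝ) * (2 : ℝ) ^ ((((2 : ℕ) : ℝ) - 1) / 2) *
        (Real.logb 2 (9 / 5)) ^ (1 / ((2 : ℕ) : ℝ)) < 2 * √(Real.logb 2 (24 / 7)) := by
  refine ⟨?_, fun n hn => cst_lt n hn, ?_⟩
  · rintro k n hk rfl C hC
    exact main_k k hk C hC
  · have h : cst 2 < 2 * √(Real.logb 2 (24 / 7)) := by
      rw [cst_two]
      exact const_lt
    exact h

end Vale.Agent.Results.P057.RankinConstant
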